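import Vale.Agent.P133.W634.T
import Vale.Agent.P133.H832.SimpleDef
import Vale.Agent.P133.H832.FieldDefs
import Vale.Agent.P133.R2.H28.Defs
import Vale.Agent.P133F.Defs

/-!
P133 (helper665), W634 [E]: continuous fields and the inputs [P] and [A].
-/

open scoped ComplexOrder

namespace Vale.Agent.P133.W634

open Vale.Agent.P133 Vale.Agent.P133.Statement Vale.Agent.P133F Vale.Agent.P133.H832
  Vale.Agent.P133.R2.H28 Set Topology

universe u v

/-- The maps `π t` present `A` as the algebra of sections vanishing at infinity of a continuous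
field of C*-algebras over `X` with fibres `B t`: they are surjective, the norm of `a` is at most
the supremum of the norms of the `π t a`, the functions `t ↦ ‖π t a‖` are continuous and vanish at
infinity, and for every continuous `f : X → [0, 1]` and `a` in `A` the section `t ↦ f t • π t a`
is in `A`. -/
def IsContFieldMap {X : Type v} [TopologicalSpace X] {B : X → Type u}
    [∀ t, NonUnitalCStarAlgebra (B t)] {A : Type u} [NonUnitalCStarAlgebra A]
    (π : ∀ t, A →⋆ₙₐ[ℂ] B t) : Prop :=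
  (∀ t, Function.Surjective (π t)) ∧
    (∀ (a : A) (r : ℝ), 0 ≤ r → (∀ t, ‖π t a‖ ≤ r) → ‖a‖ ≤ r) ∧
    (∀ (a : A) (r : ℝ), 0 < r → IsCompact {t | r ≤ ‖π t a‖}) ∧
    (∀ f : C(X, ℝ), (∀ t, 0 ≤ f t ∧ f t ≤ 1) → ∀ a : A, ∃ b : A, ∀ t,
      π t b = (f t : ℂ) • π t a) ∧
    ∀ a : A, Continuous fun t => ‖π t a‖

/-- `A` is the algebra of sections vanishing at infinity of a continuous field of C*-algebras
with fibres `B t`. -/
def IsContField {X : Type v} [TopologicalSpace X] (B : X → Type u)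
    [∀ t, NonUnitalCStarAlgebra (B t)] (A : Type u) [NonUnitalCStarAlgebra A] : Prop :=
  ∃ π : ∀ t, A →⋆ₙₐ[ℂ] B t, IsContFieldMap π

/-- `π t h` is neither `≤ 0` nor `≥ 0` -/
def Good {X : Type v} {B : X → Type u} [∀ t, NonUnitalCStarAlgebra (B t)]
    [∀ t, PartialOrder (B t)] {A : Type u} [NonUnitalCStarAlgebra A]
    (π : ∀ t, A →⋆ₙₐ[ℂ] B t) (h : A) (t : X) : Prop := ¬ π t h ≤ 0 ∧ ¬ 0 ≤ π t h

/-- the `P j` are orthogonal nonzero projections at all points of `V` -/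
def ProjOn {X : Type v} {B : X → Type u} [∀ t, NonUnitalCStarAlgebra (B t)]
    {A : Type u} [NonUnitalCStarAlgebra A]
    (π : ∀ t, A →⋆ₙₐ[ℂ] B t) (P : ℕ → A) (V : Set X) : Prop :=
  ∀ t ∈ V, (∀ i j, π t (P i) * π t (P j) = if i = j then π t (P i) else 0) ∧
    ∀ j, π t (P j) ≠ 0

/-- output of [P] -/
def PStmt : Prop :=
  ∀ (X : Type v) [TopologicalSpace X] [T2Space X] [LocallyCompactSpace X] (B : X → Type u)
    [∀ t, NonUnitalCStarAlgebra (B t)] [∀ t, PartialOrder (B t)] [∀ t, StarOrderedRing (B t)]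
    (A : Type u) [NonUnitalCStarAlgebra A] [PartialOrder A] [StarOrderedRing A]
    (π : ∀ t, A →⋆ₙₐ[ℂ] B t), IsContFieldMap π → ∀ a : A, 0 ≤ a → ∀ t₀ : X, π t₀ a ≠ 0 →
    IsSimpleC (B t₀) → PurelyInfinite (B t₀) →
    ∃ P : ℕ → A, (∀ j, IsSelfAdjoint (P j)) ∧ (∀ j, P j ∈ Her a) ∧
      ∃ V : Set X, IsOpen V ∧ t₀ ∈ V ∧ ProjOn π P V

/-- output of [A] -/
def AStmt : Prop :=
  ∀ (X : Type v) [TopologicalSpace X] [T2Space X] [LocallyCompactSpace X] (B : X → Type u)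
    [∀ t, NonUnitalCStarAlgebra (B t)] [∀ t, PartialOrder (B t)] [∀ t, StarOrderedRing (B t)]
    (A : Type u) [NonUnitalCStarAlgebra A] [PartialOrder A] [StarOrderedRing A]
    (π : ∀ t, A →⋆ₙₐ[ℂ] B t), IsContFieldMap π →
    (∀ K : Set X, IsCompact K → WeaklyInfDim K) → ∀ a : A, 0 ≤ a → ∀ P : ℕ → A,
    (∀ j, IsSelfAdjoint (P j)) → (∀ j, P j ∈ Her a) → ∀ V : Set X, IsOpen V → ProjOn π P V →
    ∀ S K : Set X, IsCompact S → IsCompact K → K ⊆ V → ∀ h : A, IsSelfAdjoint h → h ∈ Her a →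
    (∀ t ∈ S, Good π h t) →
      ∃ h' : A, IsSelfAdjoint h' ∧ h' ∈ Her a ∧ ∀ t ∈ S ∪ K, Good π h' t

end Vale.Agent.P133.W634
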