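import Vale.Agent.P133.W634.H665.Cov
import Vale.Agent.P133.W634.HausSpec
import Vale.Agent.P133.R2.H28.Conv
import Vale.Agent.P133.H832.Bridge
import Vale.Agent.P133.H681.Full

/-!
P133 (helper665), W634 [E]: the theorem for weakly infinite-dimensional Hausdorff primitive ideal
spaces, from [P] and [A].
-/

open scoped ComplexOrder

namespace Vale.Agent.P133.W634

open Vale.Agent.P133 Vale.Agent.P133F Vale.Agent.P133.Statement Vale.Agent.P133.H832
  Vale.Agent.P133.H681 Vale.Agent.P133.R2 Vale.Agent.P133.R2.H28 Vale.Agent.P133.R2.H778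
  Vale.Agent.P133.H330 Set Topology

universe u v

/-- continuous fields of simple C*-algebras -/
theorem coincide_contField (hP : PStmt.{u, v}) (hA : AStmt.{u, v}) {X : Type v}
    [TopologicalSpace X] [T2Space X] [LocallyCompactSpace X] {B : X → Type u}
    [∀ t, NonUnitalCStarAlgebra (B t)] [∀ t, PartialOrder (B t)] [∀ t, StarOrderedRing (B t)]
    {A : Type u} [NonUnitalCStarAlgebra A] [PartialOrder A] [StarOrderedRing A]
    (hX : ∀ K : Set X, IsCompact K → WeaklyInfDim K) (hF : IsContField B A)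
    (hs : ∀ t, IsSimpleC (B t)) : Coincide A := by
  obtain ⟨π, hπ⟩ := hF
  refine coincide_of fun hW => ?_
  have hPI : ∀ t, PurelyInfinite (B t) := fun t =>
    pi_of_eltPI (wpi_simple (hs t) (wpi_of_surj (π t) (hπ.1 t) hW))
  refine (pi_iff_twoOrth hW).2 (twoOrth_iff.2 fun a ha δ hδ => ?_)
  have hK : IsCompact {t | δ ≤ ‖π t a‖} := hπ.2.2.1 a δ hδ
  obtain ⟨h, hh, hH, hg⟩ := H665.exists_good (π := π) (a := a) hK (by
    intro t ht
    have ht' : δ ≤ ‖π t a‖ := ht
    have hne : π t a ≠ 0 := by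
      intro h0
      rw [h0, norm_zero] at ht'
      linarith
    obtain ⟨P, h1, h2, V, hV, htV, h3⟩ := hP X B A π hπ a ha t hne (hs t) (hPI t)
    exact ⟨V, hV, htV, hA X B A π hπ hX a ha P h1 h2 V hV h3⟩)
  exact ⟨h, hh, hH, H665.ns_of_good hπ.1 hπ.2.1 hπ.2.2.1 hπ.2.2.2.1 hs ha hh hH hδ
    fun t ht => hg t ht⟩

/-- Hausdorff primitive ideal space -/
theorem coincide_openSets (hP : PStmt.{u, u}) (hA : AStmt.{u, u}) {X : Type u}
    [TopologicalSpace X] [T2Space X]
    {A : Type u} [NonUnitalCStarAlgebra A] [PartialOrder A] [StarOrderedRing A]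
    (hX : ∀ K : Set X, IsCompact K → WeaklyInfDim K) (h : OpenSets X A) : Coincide A := by
  obtain ⟨hl, B, i1, i2, i3, hF, hs⟩ := field_of_openSets h
  exact coincide_contField hP hA hX hF hs

end Vale.Agent.P133.W634
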