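import Vale.Agent.P133.R2.H778.Gen2
import Vale.Agent.P133.W634.H665.Spec

/-!
P133 (helper665), W634 [E]: finitely many gluing steps give an element which is neither positive
nor negative at every point of a compact set; such elements are nowhere scalar.
-/

open scoped ComplexOrder

namespace Vale.Agent.P133.W634.H665

open Vale.Agent.P133 Vale.Agent.P133.Statement Vale.Agent.P133.H832 Vale.Agent.P133.R2
  Vale.Agent.P133.R2.H28 Vale.Agent.P133.R2.H778 Set Topology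

universe u v

section

variable {X : Type v} [TopologicalSpace X] {B : X → Type u} [∀ t, NonUnitalCStarAlgebra (B t)]
  [∀ t, PartialOrder (B t)] {A : Type u} [NonUnitalCStarAlgebra A]

/-- one gluing step over the open set `V` is possible -/
def Glues (π : ∀ t, A →⋆ₙₐ[ℂ] B t) (a : A) (V : Set X) : Prop :=
  ∀ S K : Set X, IsCompact S → IsCompact K → K ⊆ V → ∀ h : A, IsSelfAdjoint h → h ∈ Her a →
    (∀ t ∈ S, Good π h t) →
      ∃ h' : A, IsSelfAdjoint h' ∧ h' ∈ Her a ∧ ∀ t ∈ S ∪ K, Good π h' t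

/-- [E0]: the cover -/
theorem exists_good [T2Space X] [LocallyCompactSpace X] {π : ∀ t, A →⋆ₙₐ[ℂ] B t}
    {a : A} {K : Set X} (hK : IsCompact K)
    (hstep : ∀ t ∈ K, ∃ V : Set X, IsOpen V ∧ t ∈ V ∧ Glues π a V) :
    ∃ h : A, IsSelfAdjoint h ∧ h ∈ Her a ∧ ∀ t ∈ K, Good π h t := by
  classical
  have h1 : ∀ t : X, ∃ N : Set X, IsCompact N ∧ (t ∈ K → N ∈ 𝓝 t ∧
      ∃ V : Set X, N ⊆ V ∧ Glues π a V) := by
    intro t
    by_cases ht : t ∈ K
    · obtain ⟨V, hV, htV, hG⟩ := hstep t ht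
      obtain ⟨N, hN, hNV, hNc⟩ := local_compact_nhds (hV.mem_nhds htV)
      exact ⟨N, hNc, fun _ => ⟨hN, V, hNV, hG⟩⟩
    · exact ⟨∅, isCompact_empty, fun h => absurd h ht⟩
  choose N hNc hN using h1
  obtain ⟨T, hT, hcov⟩ := hK.elim_nhds_subcover N (fun t ht => (hN t ht).1)
  have key : ∀ T : Finset X, (∀ x ∈ T, x ∈ K) →
      ∃ h : A, IsSelfAdjoint h ∧ h ∈ Her a ∧ ∀ t ∈ ⋃ x ∈ T, N x, Good π h t := by
    intro T
    induction T using Finset.induction_on with
    | empty =>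
      intro _
      exact ⟨0, IsSelfAdjoint.zero A, subset_closure ⟨0, by simp⟩, fun t ht => by simp at ht⟩
    | insert x T hx ih =>
      intro hT
      obtain ⟨h, hh, hH, hg⟩ := ih fun y hy => hT y (Finset.mem_insert_of_mem hy)
      obtain ⟨-, V, hNV, hG⟩ := hN x (hT x (Finset.mem_insert_self _ _))
      obtain ⟨h', h1, h2, h3⟩ := hG (⋃ y ∈ T, N y) (N x)
        (T.isCompact_biUnion fun y _ => hNc y) (hNc x) hNV h hh hH hg
      refine ⟨h', h1, h2, fun t ht => h3 t ?_⟩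
      rw [Finset.set_biUnion_insert] at ht
      exact ht.symm
  obtain ⟨h, h1, h2, h3⟩ := key T hT
  exact ⟨h, h1, h2, fun t ht => h3 t (hcov ht)⟩

/-- in a fibre: an element of `Her a` with `h a = l a` satisfies `h h = l h` -/
theorem mul_self_of_her {C : Type u} [NonUnitalCStarAlgebra C] {a h : C} {l : ℝ}
    (hH : h ∈ closure (Set.range fun w => a * w * a)) (hl : h * a = l • a) :
    h * h = l • h := by
  have h1 : ∀ x ∈ closure (Set.range fun w => a * w * a), h * x = l • x := by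
    intro x hx
    have hcl : IsClosed {x : C | h * x = l • x} :=
      isClosed_eq (by fun_prop) (by fun_prop)
    refine closure_minimal ?_ hcl hx
    rintro _ ⟨w, rfl⟩
    show h * (a * w * a) = l • (a * w * a)
    rw [← mul_assoc, ← mul_assoc, hl, smul_mul_assoc, smul_mul_assoc]
  exact h1 h hH

/-- a selfadjoint element with `h h = l h` is `≥ 0` or `≤ 0` -/
theorem pos_or_neg {C : Type u} [NonUnitalCStarAlgebra C] [PartialOrder C] [StarOrderedRing C]
    {h : C} (hh : IsSelfAdjoint h) {l : ℝ} (hl : h * h = l • h) : h ≤ 0 ∨ 0 ≤ h := by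
  have h0 : 0 ≤ h * h := by
    have := star_mul_self_nonneg h
    rwa [hh.star_eq] at this
  rcases lt_trichotomy l 0 with h1 | h1 | h1
  · left
    have h2 : h = -((-l)⁻¹ • (h * h)) := by
      rw [hl, smul_smul, ← neg_smul]
      rw [show -((-l)⁻¹ * l) = 1 by rw [inv_neg, neg_mul, neg_neg, inv_mul_cancel₀ h1.ne]]
      rw [one_smul]
    rw [h2]
    exact neg_nonpos.2 (smul_nonneg (inv_nonneg.2 (neg_nonneg.2 h1.le)) h0)
  · left
    subst h1
    rw [zero_smul] at hl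
    have h3 : star h * h = 0 := by rw [hh.star_eq, hl]
    rw [CStarRing.star_mul_self_eq_zero_iff] at h3
    exact h3.le
  · right
    have h2 : h = l⁻¹ • (h * h) := by
      rw [hl, smul_smul, inv_mul_cancel₀ h1.ne', one_smul]
    rw [h2]
    exact smul_nonneg (inv_nonneg.2 h1.le) h0

/-- [E1] -/
theorem ns_of_good [T2Space X] [LocallyCompactSpace X] [∀ t, StarOrderedRing (B t)]
    [PartialOrder A] [StarOrderedRing A] {π : ∀ t, A →⋆ₙₐ[ℂ] B t}
    (hs : ∀ t, Function.Surjective (π t))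
    (hn : ∀ (a : A) (r : ℝ), 0 ≤ r → (∀ t, ‖π t a‖ ≤ r) → ‖a‖ ≤ r)
    (hu : ∀ (a : A) (r : ℝ), 0 < r → IsCompact {t | r ≤ ‖π t a‖})
    (hm : ∀ f : C(X, ℝ), (∀ t, 0 ≤ f t ∧ f t ≤ 1) → ∀ a : A, ∃ b : A, ∀ t,
      π t b = (f t : ℂ) • π t a)
    (hsimp : ∀ t, IsSimpleC (B t)) {a h : A} (ha : 0 ≤ a) (hh : IsSelfAdjoint h) (hH : h ∈ Her a)
    {δ : ℝ} (hδ : 0 < δ) (hgood : ∀ t, δ ≤ ‖π t a‖ → Good π h t) :
    ∀ P : Submodule ℂ A, IsClosedIdeal P → R2.H28.cut a δ ∉ P → ∀ l : ℝ, h * a - l • a ∉ P := by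
  intro P hP hcut l hl
  obtain ⟨P', hP', hPP', hcut'⟩ := exists_primeIdeal hP (H28.cut_nonneg a δ) hcut
  obtain ⟨x, hx⟩ := prime_over hn hu hm hP' ha hδ hcut'
  have hxK : δ ≤ ‖π x a‖ := by
    by_contra hxK
    exact hcut' (hx _ (cut_eq_zero_of_norm (π x) ha hδ (le_of_lt (not_le.1 hxK))))
  obtain ⟨Q, hQ, hQm⟩ := map_prime (π x) (hs x) hP' hx
  have hQ0 : ∀ y ∈ Q, y = 0 := by
    intro y hy
    by_contra hy0
    exact hQ.2.1 (top_le_iff.1 fun z _ => hQ.1.inId hy (hsimp x y z hy0))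
  have h1 : π x (h * a - l • a) = 0 := hQ0 _ ((hQm _).2 (hPP' hl))
  have h2 : π x h * π x a = l • π x a := by
    rw [map_sub, map_mul, sub_eq_zero, map_smul_real] at h1
    exact h1
  have h3 : π x h ∈ closure (Set.range fun w => π x a * w * π x a) := by
    refine map_mem_closure (map_continuous (π x)) hH ?_
    rintro _ ⟨w, rfl⟩
    exact ⟨π x w, by simp only [map_mul]⟩
  rcases pos_or_neg (hh.map (π x)) (mul_self_of_her h3 h2) with h4 | h4
  · exact (hgood x hxK).1 h4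
  · exact (hgood x hxK).2 h4

end

end Vale.Agent.P133.W634.H665
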